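import Mathlib

/-!
# P344: the complex Cauchy-Binet formula, summed over all maps
-/

namespace Vale.Agent.P344

open Finset Matrix
open scoped ComplexConjugate

set_option linter.unusedSectionVars false

variable {m : ℕ} {E : Type} [Fintype E] [DecidableEq E]

/-- determinant of the rows `a (f i)` -/
noncomputable def rD (a : E → Fin m → ℂ) (f : Fin m → E) : ℂ :=
  (Matrix.of fun i j => a (f i) j).det

theorem rD_comp (a : E → Fin m → ℂ) (f : Fin m → E) (σ : Equiv.Perm (Fin m)) :
    rD a (f ∘ σ) = (Equiv.Perm.sign σ : ℤ) * rD a f :=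
  Matrix.det_permute σ (Matrix.of fun i j => a (f i) j)

theorem rD_zero (a : E → Fin m → ℂ) (f : Fin m → E) (hf : ¬ Function.Injective f) :
    rD a f = 0 := by
  unfold Function.Injective at hf
  push Not at hf
  obtain ⟨i, j, hij, hne⟩ := hf
  exact Matrix.det_zero_of_row_eq hne (by ext k; simp [hij])

/-- the Gram matrix -/
noncomputable def gr (a : E → Fin m → ℂ) : Matrix (Fin m) (Fin m) ℂ :=
  Matrix.of fun i j => ∑ e, conj (a e i) * a e j

theorem det_gr (a : E → Fin m → ℂ) :
    (gr a).det = ∑ f : Fin m → E, (∏ i, conj (a (f i) i)) * rD a f := by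
  have h1 : gr a = Matrix.of fun i => ∑ e, (conj (a e i)) • a e := by
    ext i j
    simp [gr, Finset.sum_apply]
  rw [h1]
  have h2 := (Matrix.detRowAlternating (n := Fin m) (R := ℂ)).toMultilinearMap.map_sum
    (fun (i : Fin m) (e : E) => (conj (a e i)) • a e)
  have h3 : (Matrix.of fun i => ∑ e, (conj (a e i)) • a e).det
      = (Matrix.detRowAlternating (n := Fin m) (R := ℂ)).toMultilinearMap
          (fun i => ∑ e, (conj (a e i)) • a e) := rfl
  rw [h3, h2]
  refine Finset.sum_congr rfl fun f _ => ?_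
  rw [MultilinearMap.map_smul_univ]
  rfl

theorem sum_normSq (a : E → Fin m → ℂ) :
    ∑ f : Fin m → E, conj (rD a f) * rD a f = (m.factorial : ℂ) * (gr a).det := by
  have h1 : ∀ f : Fin m → E, conj (rD a f) = ∑ σ : Equiv.Perm (Fin m),
      ((Equiv.Perm.sign σ : ℤ) : ℂ) * ∏ i, conj (a (f (σ i)) i) := by
    intro f
    unfold rD
    rw [Matrix.det_apply', map_sum]
    refine Finset.sum_congr rfl fun σ _ => ?_
    rw [map_mul, map_prod]
    congr 1
    simp
  have h2 : ∑ f : Fin m → E, conj (rD a f) * rD a f = ∑ σ : Equiv.Perm (Fin m),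
      ∑ f : Fin m → E, ((Equiv.Perm.sign σ : ℤ) : ℂ) * (∏ i, conj (a (f (σ i)) i)) * rD a f := by
    rw [Finset.sum_comm]
    refine Finset.sum_congr rfl fun f _ => ?_
    rw [h1, Finset.sum_mul]
  have h3 : ∀ σ : Equiv.Perm (Fin m), ∑ f : Fin m → E, ((Equiv.Perm.sign σ : ℤ) : ℂ) *
      (∏ i, conj (a (f (σ i)) i)) * rD a f = (gr a).det := by
    intro σ
    rw [det_gr]
    refine Fintype.sum_equiv (Equiv.arrowCongr σ.symm (Equiv.refl E)) _ _ fun f => ?_
    have e1 : (Equiv.arrowCongr σ.symm (Equiv.refl E)) f = f ∘ σ := by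
      ext i
      simp [Equiv.arrowCongr]
    rw [e1, rD_comp]
    simp only [Function.comp_apply]
    ring
  rw [h2, Finset.sum_congr rfl fun σ _ => h3 σ, Finset.sum_const, Finset.card_univ,
    Fintype.card_perm, Fintype.card_fin, nsmul_eq_mul]

theorem sum_norm (a : E → Fin m → ℂ) {c : ℝ} (hc : (gr a).det = c) :
    ∑ f : Fin m → E, ‖rD a f‖ ^ 2 = m.factorial * c := by
  have h1 := sum_normSq a
  rw [hc] at h1
  have h2 : ∀ f : Fin m → E, conj (rD a f) * rD a f = ((‖rD a f‖ ^ 2 : ℝ) : ℂ) := by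
    intro f
    rw [mul_comm, Complex.mul_conj, Complex.normSq_eq_norm_sq]
  simp only [h2] at h1
  rw [← Complex.ofReal_sum] at h1
  exact_mod_cast h1

/-- every minor is at most the square root of the Gram determinant -/
theorem norm_rD_le (a : E → Fin m → ℂ) {c : ℝ} (hc : (gr a).det = c) (hc0 : 0 ≤ c)
    (f : Fin m → E) : ‖rD a f‖ ^ 2 ≤ c := by
  by_cases hf : Function.Injective f
  · have h1 : ∑ σ : Equiv.Perm (Fin m), ‖rD a (f ∘ σ)‖ ^ 2 ≤ ∑ g : Fin m → E, ‖rD a g‖ ^ 2 := by
      have h2 : Function.Injective fun σ : Equiv.Perm (Fin m) => f ∘ σ := by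
        intro σ τ h
        ext i
        have h3 := congrFun h i
        exact congrArg Fin.val (hf h3)
      have h4 : ∑ σ : Equiv.Perm (Fin m), ‖rD a (f ∘ σ)‖ ^ 2 =
          ∑ g ∈ Finset.univ.image fun σ : Equiv.Perm (Fin m) => f ∘ σ, ‖rD a g‖ ^ 2 :=
        (Finset.sum_image (f := fun g : Fin m → E => ‖rD a g‖ ^ 2)
          (g := fun σ : Equiv.Perm (Fin m) => f ∘ σ) (fun σ _ τ _ h => h2 h)).symm
      rw [h4]
      exact Finset.sum_le_univ_sum_of_nonneg fun g => sq_nonneg _
    have h5 : ∀ σ : Equiv.Perm (Fin m), ‖rD a (f ∘ σ)‖ ^ 2 = ‖rD a f‖ ^ 2 := by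
      intro σ
      rw [rD_comp, norm_mul]
      have : ‖(((Equiv.Perm.sign σ : ℤˣ) : ℤ) : ℂ)‖ = 1 := by
        rcases Int.units_eq_one_or (Equiv.Perm.sign σ) with h | h <;> rw [h] <;> simp
      rw [this, one_mul]
    rw [Finset.sum_congr rfl fun σ _ => h5 σ, Finset.sum_const, Finset.card_univ,
      Fintype.card_perm, Fintype.card_fin, nsmul_eq_mul, sum_norm a hc] at h1
    have h6 : (0 : ℝ) < m.factorial := by exact_mod_cast m.factorial_pos
    exact le_of_mul_le_mul_left h1 h6
  · rw [rD_zero a f hf]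
    simpa using hc0

/-- some minor is large -/
theorem exists_large (a : E → Fin m → ℂ) {c : ℝ} (hc : (gr a).det = c) {D : ℝ}
    (h : ∀ f, ‖rD a f‖ ≤ D) : c ≤ 2 ^ (Fintype.card E) * D ^ 2 := by
  classical
  have h1 := sum_norm a hc
  have h2 : ∑ f : Fin m → E, ‖rD a f‖ ^ 2 ≤
      ∑ f ∈ (Finset.univ.filter fun f : Fin m → E => Function.Injective f), D ^ 2 := by
    rw [← Finset.sum_filter_add_sum_filter_not Finset.univ
      (fun f : Fin m → E => Function.Injective f)]
    have h3 : ∑ f ∈ Finset.univ.filter (fun f : Fin m → E => ¬ Function.Injective f),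
        ‖rD a f‖ ^ 2 = 0 := by
      refine Finset.sum_eq_zero fun f hf => ?_
      rw [rD_zero a f (Finset.mem_filter.1 hf).2]
      simp
    rw [h3, add_zero]
    refine Finset.sum_le_sum fun f _ => ?_
    exact pow_le_pow_left₀ (norm_nonneg _) (h f) 2
  have h4 : (Finset.univ.filter fun f : Fin m → E => Function.Injective f).card =
      (Fintype.card E).descFactorial m := by
    have h5 := Fintype.card_embedding_eq (α := Fin m) (β := E)
    rw [Fintype.card_fin] at h5
    rw [← h5, ← Fintype.card_subtype]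
    exact Fintype.card_congr (Equiv.subtypeInjectiveEquivEmbedding (Fin m) E)
  rw [Finset.sum_const, h4, Nat.descFactorial_eq_factorial_mul_choose, nsmul_eq_mul, h1] at h2
  have h6 : (0 : ℝ) < m.factorial := by exact_mod_cast m.factorial_pos
  push_cast at h2
  have h7 : c ≤ ((Fintype.card E).choose m : ℝ) * D ^ 2 := by
    rw [mul_assoc] at h2
    exact le_of_mul_le_mul_left h2 h6
  refine h7.trans (mul_le_mul_of_nonneg_right ?_ (sq_nonneg _))
  exact_mod_cast Nat.choose_le_two_pow _ _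

end Vale.Agent.P344
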