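import Mathlib

/-!
# P344: linear circuits and the discrete Fourier transform
-/

namespace Vale.Agent.P344

open Finset

/-- The values computed by a linear circuit are linear forms in the inputs `x 0, ..., x (n-1)`. -/
abbrev Form (n : ℕ) : Type := (Fin n → ℂ) →ₗ[ℂ] ℂ

/-- `Comp n C l s L`: the list `l` contains the inputs, the constant `0` and all the values computed
by the `s` gates of a linear circuit on `n` inputs; a gate computes `u + v`, `u - v` or `c u` from
computed values `u`, `v`, and every gate costs one. There may be any number of scalar
multiplications with `‖c‖ ≤ C` (gates `smul`); the scalar multiplications with an unrestricted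
coefficient `c` (gates `big`) are recorded: `L` is the list of the values `u` to which they are
applied, so `L.length` is their number. -/
inductive Comp (n : ℕ) (C : ℝ) : List (Form n) → ℕ → List (Form n) → Prop
  | start : Comp n C (0 :: List.ofFn fun i : Fin n => (LinearMap.proj i : Form n)) 0 []
  | add {l s L u v} : Comp n C l s L → u ∈ l → v ∈ l → Comp n C ((u + v) :: l) (s + 1) L
  | sub {l s L u v} : Comp n C l s L → u ∈ l → v ∈ l → Comp n C ((u - v) :: l) (s + 1) L
  | smul {l s L u} (c : ℂ) : Comp n C l s L → u ∈ l → ‖c‖ ≤ C → Comp n C ((c • u) :: l) (s + 1) L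
  | big {l s L u} (c : ℂ) : Comp n C l s L → u ∈ l → Comp n C ((c • u) :: l) (s + 1) (u :: L)

/-- The output number `j` of the discrete Fourier transform, `∑ k, exp (2 π i j k / n) x k`. -/
noncomputable def dft (n : ℕ) (j : Fin n) : Form n :=
  ∑ k : Fin n, Complex.exp (2 * Real.pi * Complex.I * ((j : ℕ) : ℂ) * ((k : ℕ) : ℂ) / n) •
    (LinearMap.proj k : Form n)

end Vale.Agent.P344
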