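import Vale.Agent.Lib.P344.CB
import Vale.Agent.Lib.P344.Defs

/-!
# P344: growth of the minors
-/

namespace Vale.Agent.P344

open Finset Matrix
open scoped ComplexConjugate

variable {n m : ℕ}

/-- determinant of the restricted forms -/
noncomputable def dB (B : Fin m → Fin n → ℂ) (v : Fin m → Form n) : ℂ :=
  (Matrix.of fun i j => v i (B j)).det

theorem of_update (B : Fin m → Fin n → ℂ) (v : Fin m → Form n) (i : Fin m) (x : Form n) :
    (Matrix.of fun a b => (Function.update v i x a) (B b)) =
      Matrix.updateRow (Matrix.of fun a b => v a (B b)) i (fun b => x (B b)) := by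
  ext a b
  by_cases h : a = i
  · subst h
    simp
  · simp [Matrix.updateRow_ne h, Function.update_of_ne h]

theorem dB_add (B : Fin m → Fin n → ℂ) (v : Fin m → Form n) (i : Fin m) (x y : Form n) :
    dB B (Function.update v i (x + y)) =
      dB B (Function.update v i x) + dB B (Function.update v i y) := by
  unfold dB
  rw [of_update, of_update, of_update, ← Matrix.det_updateRow_add]
  rfl

theorem dB_smul (B : Fin m → Fin n → ℂ) (v : Fin m → Form n) (i : Fin m) (c : ℂ) (x : Form n) :
    dB B (Function.update v i (c • x)) = c * dB B (Function.update v i x) := by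
  unfold dB
  rw [of_update, of_update, ← Matrix.det_updateRow_smul]
  rfl

theorem dB_step {B : Fin m → Fin n → ℂ} {l : List (Form n)} {C D : ℝ} (hC : 1 ≤ C) (hD : 0 ≤ D)
    (h : ∀ v : Fin m → Form n, (∀ i, v i ∈ l) → ‖dB B v‖ ≤ D) {u w : Form n} (hu : u ∈ l)
    (hw : ∀ v : Fin m → Form n, (∀ i, v i ∈ l) → ∀ i, ‖dB B (Function.update v i w)‖ ≤ C * D)
    (v : Fin m → Form n) (hv : ∀ i, v i ∈ w :: l) : ‖dB B v‖ ≤ C * D := by
  by_cases h1 : ∀ i, v i ∈ l
  · exact (h v h1).trans (le_mul_of_one_le_left hD hC)
  · push Not at h1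
    obtain ⟨i, hi⟩ := h1
    have hiw : v i = w := by
      rcases List.mem_cons.1 (hv i) with h2 | h2
      · exact h2
      · exact absurd h2 hi
    by_cases h2 : ∃ j, j ≠ i ∧ v j = w
    · obtain ⟨j, hj, hjw⟩ := h2
      have h3 : dB B v = 0 := by
        unfold dB
        refine Matrix.det_zero_of_row_eq hj ?_
        ext k
        simp [hiw, hjw]
      rw [h3, norm_zero]
      positivity
    · push Not at h2
      have h3 : ∀ a, Function.update v i u a ∈ l := by
        intro a
        by_cases ha : a = i
        · subst ha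
          rw [Function.update_self]
          exact hu
        · rw [Function.update_of_ne ha]
          rcases List.mem_cons.1 (hv a) with h4 | h4
          · exact absurd h4 (h2 a ha)
          · exact h4
      have h4 : v = Function.update (Function.update v i u) i w := by
        rw [Function.update_idem, ← hiw, Function.update_eq_self]
      rw [h4]
      exact hw _ h3 i

theorem upd_mem {l : List (Form n)} {v : Fin m → Form n} (hv : ∀ i, v i ∈ l) {u : Form n}
    (hu : u ∈ l) (i a : Fin m) : Function.update v i u a ∈ l := by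
  by_cases ha : a = i
  · subst ha
    rw [Function.update_self]
    exact hu
  · rw [Function.update_of_ne ha]
    exact hv a

theorem grow {B : Fin m → Fin n → ℂ} {C : ℝ} (hC : 2 ≤ C)
    (h0 : ∀ v : Fin m → Form n,
      (∀ i, v i ∈ (0 :: List.ofFn fun i : Fin n => (LinearMap.proj i : Form n))) → ‖dB B v‖ ≤ 1)
    {l : List (Form n)} {s : ℕ} {L : List (Form n)} (h : Comp n C l s L)
    (hB : ∀ g ∈ L, ∀ j, g (B j) = 0) :
    L.length ≤ s ∧ ∀ v : Fin m → Form n, (∀ i, v i ∈ l) → ‖dB B v‖ ≤ C ^ (s - L.length) := by
  have hC0 : 0 ≤ C := by linarith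
  have hC1 : 1 ≤ C := by linarith
  induction h with
  | start => exact ⟨le_rfl, fun v hv => by simpa using h0 v hv⟩
  | @add l s L u v _ hu hv ih =>
    obtain ⟨h1, h2⟩ := ih hB
    refine ⟨by omega, fun x hx => ?_⟩
    rw [show s + 1 - L.length = (s - L.length) + 1 by omega, pow_succ, mul_comm]
    refine dB_step hC1 (by positivity) h2 hu (fun y hy i => ?_) x hx
    rw [dB_add]
    refine (norm_add_le _ _).trans ?_
    have h3 := h2 _ (upd_mem hy hu i)
    have h4 := h2 _ (upd_mem hy hv i)
    nlinarith [pow_nonneg hC0 (s - L.length)]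
  | @sub l s L u v _ hu hv ih =>
    obtain ⟨h1, h2⟩ := ih hB
    refine ⟨by omega, fun x hx => ?_⟩
    rw [show s + 1 - L.length = (s - L.length) + 1 by omega, pow_succ, mul_comm]
    refine dB_step hC1 (by positivity) h2 hu (fun y hy i => ?_) x hx
    rw [show u - v = u + (-1 : ℂ) • v by rw [neg_one_smul, sub_eq_add_neg], dB_add, dB_smul]
    refine (norm_add_le _ _).trans ?_
    rw [norm_mul, norm_neg, norm_one, one_mul]
    have h3 := h2 _ (upd_mem hy hu i)
    have h4 := h2 _ (upd_mem hy hv i)
    nlinarith [pow_nonneg hC0 (s - L.length)]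
  | @smul l s L u c _ hu hc ih =>
    obtain ⟨h1, h2⟩ := ih hB
    refine ⟨by omega, fun x hx => ?_⟩
    rw [show s + 1 - L.length = (s - L.length) + 1 by omega, pow_succ, mul_comm]
    refine dB_step hC1 (by positivity) h2 hu (fun y hy i => ?_) x hx
    rw [dB_smul, norm_mul]
    exact mul_le_mul hc (h2 _ (upd_mem hy hu i)) (norm_nonneg _) hC0
  | @big l s L u c _ hu ih =>
    obtain ⟨h1, h2⟩ := ih fun g hg => hB g (List.mem_cons_of_mem _ hg)
    have hu0 := hB u List.mem_cons_self
    refine ⟨by simpa using h1, fun x hx => ?_⟩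
    rw [List.length_cons, show s + 1 - (L.length + 1) = s - L.length by omega,
      ← one_mul (C ^ (s - L.length))]
    refine dB_step le_rfl (by positivity) h2 hu (fun y hy i => ?_) x hx
    have h3 : dB B (Function.update y i (c • u)) = 0 := by
      unfold dB
      rw [of_update]
      refine Matrix.det_eq_zero_of_row_eq_zero i fun j => ?_
      rw [Matrix.updateRow_self]
      simp [hu0 j]
    rw [h3, norm_zero]
    positivity

end Vale.Agent.P344
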