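import Vale.Agent.Lib.P344.Grow

/-!
# P344: the lower bound with a limited number of unrestricted multiplications
-/

namespace Vale.Agent.P344

open Finset Matrix
open scoped ComplexConjugate

variable {n m : ℕ}

/-- the common kernel of few forms contains many orthonormal vectors -/
theorem exists_B (n : ℕ) (L : List (Form n)) : ∃ (m : ℕ) (B : Fin m → Fin n → ℂ),
    n ≤ m + L.length ∧ (∀ g ∈ L, ∀ j, g (B j) = 0) ∧
    ∀ i j, ∑ k, conj (B i k) * B j k = if i = j then 1 else 0 := by
  let e : EuclideanSpace ℂ (Fin n) ≃ₗ[ℂ] (Fin n → ℂ) := WithLp.linearEquiv 2 ℂ (Fin n → ℂ)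
  let Φ : EuclideanSpace ℂ (Fin n) →ₗ[ℂ] (Fin L.length → ℂ) :=
    LinearMap.pi fun t => (L.get t) ∘ₗ e.toLinearMap
  let V := LinearMap.ker Φ
  have h1 := LinearMap.finrank_range_add_finrank_ker Φ
  have h2 : Module.finrank ℂ (LinearMap.range Φ) ≤ L.length := by
    have := Submodule.finrank_le (LinearMap.range Φ)
    rwa [Module.finrank_fin_fun] at this
  rw [finrank_euclideanSpace, Fintype.card_fin] at h1
  let b := stdOrthonormalBasis ℂ V
  refine ⟨Module.finrank ℂ V, fun i => e (b i : EuclideanSpace ℂ (Fin n)), ?_, ?_, ?_⟩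
  · change _ + Module.finrank ℂ V = n at h1
    omega
  · intro g hg j
    obtain ⟨t, rfl⟩ := List.get_of_mem hg
    have h3 : Φ (b j : EuclideanSpace ℂ (Fin n)) = 0 := (b j).2
    exact congrFun h3 t
  · intro i j
    have h3 := orthonormal_iff_ite.1 b.orthonormal i j
    rw [Submodule.coe_inner] at h3
    rw [← h3, PiLp.inner_apply]
    refine Finset.sum_congr rfl fun k _ => ?_
    rw [RCLike.inner_apply, mul_comm]
    rfl

theorem dft_apply (j : Fin n) (x : Fin n → ℂ) : dft n j x =
    ∑ k : Fin n, Complex.exp (2 * Real.pi * Complex.I * ((j : ℕ) : ℂ) * ((k : ℕ) : ℂ) / n) * x k := by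
  unfold dft
  rw [LinearMap.sum_apply]
  rfl

theorem char_orth (k k' : Fin n) : ∑ e : Fin n,
    conj (Complex.exp (2 * Real.pi * Complex.I * ((e : ℕ) : ℂ) * ((k : ℕ) : ℂ) / n)) *
      Complex.exp (2 * Real.pi * Complex.I * ((e : ℕ) : ℂ) * ((k' : ℕ) : ℂ) / n) =
    if k = k' then (n : ℂ) else 0 := by
  have hn : 0 < n := Fin.pos k
  have hn' : (n : ℂ) ≠ 0 := by exact_mod_cast hn.ne'
  set z : ℂ := Complex.exp (2 * Real.pi * Complex.I * (((k' : ℕ) : ℂ) - ((k : ℕ) : ℂ)) / n) with hz
  have h1 : ∀ e : Fin n,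
      conj (Complex.exp (2 * Real.pi * Complex.I * ((e : ℕ) : ℂ) * ((k : ℕ) : ℂ) / n)) *
      Complex.exp (2 * Real.pi * Complex.I * ((e : ℕ) : ℂ) * ((k' : ℕ) : ℂ) / n) = z ^ (e : ℕ) := by
    intro e
    rw [← Complex.exp_conj, ← Complex.exp_add, hz, ← Complex.exp_nat_mul]
    congr 1
    simp only [map_div₀, map_mul, map_ofNat, Complex.conj_ofReal, Complex.conj_I, map_natCast]
    ring
  rw [Finset.sum_congr rfl fun e _ => h1 e, Fin.sum_univ_eq_sum_range (fun i => z ^ i) n]
  split_ifs with h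
  · subst h
    have : z = 1 := by rw [hz]; simp
    rw [this]
    simp
  · have hz1 : z ≠ 1 := by
      intro h2
      rw [hz, Complex.exp_eq_one_iff] at h2
      obtain ⟨t, ht⟩ := h2
      have h3 : (((k' : ℕ) : ℂ) - ((k : ℕ) : ℂ)) = t * n := by
        have h4 : (2 * Real.pi * Complex.I : ℂ) ≠ 0 := Complex.two_pi_I_ne_zero
        field_simp at ht
        have h5 : (2 * Real.pi * Complex.I : ℂ) * (((k' : ℕ) : ℂ) - ((k : ℕ) : ℂ)) =
            (2 * Real.pi * Complex.I : ℂ) * (t * n) := by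
          linear_combination (2 * Real.pi * Complex.I : ℂ) * ht
        exact mul_left_cancel₀ h4 h5
      have h6 : ((k' : ℕ) : ℤ) - ((k : ℕ) : ℤ) = t * n := by exact_mod_cast h3
      have h7 := k.2
      have h8 := k'.2
      have h9 : (k : ℕ) ≠ (k' : ℕ) := fun hh => h (Fin.ext hh)
      rcases lt_trichotomy t 0 with ht0 | ht0 | ht0
      · nlinarith
      · subst ht0
        omega
      · nlinarith
    have hzn : z ^ n = 1 := by
      rw [hz, ← Complex.exp_nat_mul, Complex.exp_eq_one_iff]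
      refine ⟨((k' : ℕ) : ℤ) - ((k : ℕ) : ℤ), ?_⟩
      push_cast
      field_simp
    have h2 := mul_geom_sum z n
    rw [hzn, sub_self] at h2
    rcases mul_eq_zero.1 h2 with h3 | h3
    · exact absurd (sub_eq_zero.1 h3) hz1
    · exact h3

/-- the initial minors are at most `1` -/
theorem init_le {B : Fin m → Fin n → ℂ}
    (hB : ∀ i j, ∑ k, conj (B i k) * B j k = if i = j then 1 else 0) (v : Fin m → Form n)
    (hv : ∀ i, v i ∈ (0 :: List.ofFn fun i : Fin n => (LinearMap.proj i : Form n))) :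
    ‖dB B v‖ ≤ 1 := by
  by_cases h0 : ∃ i, v i = 0
  · obtain ⟨i, hi⟩ := h0
    have h3 : dB B v = 0 := by
      unfold dB
      refine Matrix.det_eq_zero_of_row_eq_zero i fun j => ?_
      simp [hi]
    rw [h3, norm_zero]
    norm_num
  · push Not at h0
    have h1 : ∀ i, ∃ k : Fin n, v i = LinearMap.proj k := by
      intro i
      rcases List.mem_cons.1 (hv i) with h2 | h2
      · exact absurd h2 (h0 i)
      · rw [List.mem_ofFn] at h2
        obtain ⟨k, hk⟩ := h2
        exact ⟨k, hk.symm⟩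
    choose f hf using h1
    have h2 : dB B v = rD (fun e j => B j e) f := by
      unfold dB rD
      congr 1
      ext i j
      simp [hf]
    have h3 : (gr fun (e : Fin n) j => B j e).det = ((1 : ℝ) : ℂ) := by
      have : (gr fun (e : Fin n) j => B j e) = 1 := by
        ext i j
        rw [Matrix.one_apply]
        exact hB i j
      rw [this, Matrix.det_one]
      norm_num
    have h4 := norm_rD_le _ h3 zero_le_one f
    rw [h2]
    exact (sq_le_one_iff₀ (norm_nonneg _)).1 h4

/-- the Gram matrix of the restricted transform -/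
theorem gr_dft {B : Fin m → Fin n → ℂ}
    (hB : ∀ i j, ∑ k, conj (B i k) * B j k = if i = j then 1 else 0) :
    (gr fun (e : Fin n) j => dft n e (B j)).det = (((n : ℝ) ^ m : ℝ) : ℂ) := by
  have h1 : (gr fun (e : Fin n) j => dft n e (B j)) =
      (n : ℂ) • (1 : Matrix (Fin m) (Fin m) ℂ) := by
    ext i j
    rw [Matrix.smul_apply, Matrix.one_apply, ← hB i j]
    change ∑ e, conj (dft n e (B i)) * dft n e (B j) = _
    simp only [dft_apply, map_sum, map_mul, Finset.sum_mul_sum]
    rw [Finset.sum_comm]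
    have h2 : ∀ k : Fin n, ∑ e : Fin n, ∑ k' : Fin n,
        conj (Complex.exp (2 * Real.pi * Complex.I * ((e : ℕ) : ℂ) * ((k : ℕ) : ℂ) / n)) *
          conj (B i k) *
        (Complex.exp (2 * Real.pi * Complex.I * ((e : ℕ) : ℂ) * ((k' : ℕ) : ℂ) / n) * B j k') =
        (n : ℂ) * (conj (B i k) * B j k) := by
      intro k
      rw [Finset.sum_comm]
      have h3 : ∀ k' : Fin n, ∑ e : Fin n,
          conj (Complex.exp (2 * Real.pi * Complex.I * ((e : ℕ) : ℂ) * ((k : ℕ) : ℂ) / n)) *
            conj (B i k) *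
          (Complex.exp (2 * Real.pi * Complex.I * ((e : ℕ) : ℂ) * ((k' : ℕ) : ℂ) / n) * B j k') =
          (if k = k' then (n : ℂ) else 0) * (conj (B i k) * B j k') := by
        intro k'
        rw [← char_orth k k', Finset.sum_mul]
        exact Finset.sum_congr rfl fun e _ => by ring
      rw [Finset.sum_congr rfl fun k' _ => h3 k']
      simp
    rw [Finset.sum_congr rfl fun k _ => h2 k, ← Finset.mul_sum]
    rfl
  rw [h1, Matrix.det_smul, Matrix.det_one, Fintype.card_fin]
  push_cast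
  ring

theorem main_bound (hn : 1 ≤ n) {C : ℝ} (hC : 2 ≤ C) {l : List (Form n)} {s : ℕ}
    {L : List (Form n)} (h : Comp n C l s L) (hF : ∀ j : Fin n, dft n j ∈ l) :
    ((n : ℝ) - L.length) / 2 * Real.logb 2 n - n / 2 ≤ ((s : ℝ) - L.length) * Real.logb 2 C := by
  obtain ⟨m, B, hm, hB0, hB⟩ := exists_B n L
  obtain ⟨h1, h2⟩ := grow hC (init_le hB) h hB0
  have hC0 : 0 < C := by linarith
  have h3 : (n : ℝ) ^ m ≤ 2 ^ (Fintype.card (Fin n)) * (C ^ (s - L.length)) ^ 2 := by
    refine exists_large _ (gr_dft hB) fun f => ?_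
    exact h2 (fun i => dft n (f i)) fun i => hF (f i)
  rw [Fintype.card_fin] at h3
  have hn0 : (0 : ℝ) < n := by exact_mod_cast hn
  have h4 := Real.logb_le_logb_of_le (b := 2) (by norm_num) (by positivity) h3
  rw [Real.logb_mul (by positivity) (by positivity), Real.logb_pow, Real.logb_pow, Real.logb_pow,
    Real.logb_pow, Real.logb_self_eq_one (by norm_num), mul_one] at h4
  push_cast at h4
  have h5 : ((s - L.length : ℕ) : ℝ) = (s : ℝ) - L.length := by
    rw [Nat.cast_sub h1]
  rw [h5] at h4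
  have h6 : 0 ≤ Real.logb 2 n := Real.logb_nonneg (by norm_num) (by exact_mod_cast hn)
  have h7 : (n : ℝ) - L.length ≤ m := by
    have : (n : ℝ) ≤ m + L.length := by exact_mod_cast hm
    linarith
  nlinarith

end Vale.Agent.P344
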