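import Vale.Agent.Lib.P344.Main

/-!
# P344: normalization of linear circuits and the asymptotic form of the lower bound
-/

namespace Vale.Agent.P344

open Finset

variable {n : ℕ}

theorem start_zero {C : ℝ} {l : List (Form n)} {s : ℕ} {L : List (Form n)} (h : Comp n C l s L) :
    (0 : Form n) ∈ l := by
  induction h with
  | start => exact List.mem_cons_self
  | add _ _ _ ih => exact List.mem_cons_of_mem _ ih
  | sub _ _ _ ih => exact List.mem_cons_of_mem _ ih
  | smul _ _ _ _ ih => exact List.mem_cons_of_mem _ ih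
  | big _ _ _ ih => exact List.mem_cons_of_mem _ ih

/-- one normalized addition -/
theorem add_step {l' : List (Form n)} {s' : ℕ} (h : Comp n 1 l' s' []) {u v : Form n} {a b : ℂ}
    (ha : a ≠ 0) (hb : b ≠ 0) (hu : a • u ∈ l') (hv : b • v ∈ l') :
    ∃ l'' : List (Form n), Comp n 1 l'' (s' + 2) [] ∧ (∀ w ∈ l', w ∈ l'') ∧
      ∃ c : ℂ, c ≠ 0 ∧ c • (u + v) ∈ l'' := by
  rcases le_total ‖a‖ ‖b‖ with hab | hab
  · refine ⟨(a • u + (a / b) • (b • v)) :: ((a / b) • (b • v)) :: l', ?_, ?_, a, ha, ?_⟩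
    · refine Comp.add (Comp.smul (a / b) h hv ?_) (List.mem_cons_of_mem _ hu) List.mem_cons_self
      rw [norm_div]
      exact div_le_one_of_le₀ hab (norm_nonneg _)
    · exact fun w hw => List.mem_cons_of_mem _ (List.mem_cons_of_mem _ hw)
    · have : a • (u + v) = a • u + (a / b) • (b • v) := by
        rw [smul_add, smul_smul, div_mul_cancel₀ _ hb]
      rw [this]
      exact List.mem_cons_self
  · refine ⟨((b / a) • (a • u) + b • v) :: ((b / a) • (a • u)) :: l', ?_, ?_, b, hb, ?_⟩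
    · refine Comp.add (Comp.smul (b / a) h hu ?_) List.mem_cons_self (List.mem_cons_of_mem _ hv)
      rw [norm_div]
      exact div_le_one_of_le₀ hab (norm_nonneg _)
    · exact fun w hw => List.mem_cons_of_mem _ (List.mem_cons_of_mem _ hw)
    · have : b • (u + v) = (b / a) • (a • u) + b • v := by
        rw [smul_add, smul_smul, div_mul_cancel₀ _ ha]
      rw [this]
      exact List.mem_cons_self

/-- every linear circuit can be made bounded, up to nonzero factors of the computed values -/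
theorem normalize {C : ℝ} {l : List (Form n)} {s : ℕ} {L : List (Form n)} (h : Comp n C l s L) :
    ∃ (l' : List (Form n)) (s' : ℕ), Comp n 1 l' s' [] ∧ s' ≤ 2 * s ∧
      ∀ u ∈ l, ∃ a : ℂ, a ≠ 0 ∧ a • u ∈ l' := by
  induction h with
  | start => exact ⟨_, 0, Comp.start, le_rfl, fun u hu => ⟨1, one_ne_zero, by rwa [one_smul]⟩⟩
  | @add l s L u v _ hu hv ih =>
    obtain ⟨l', s', h1, h2, h3⟩ := ih
    obtain ⟨a, ha, hua⟩ := h3 u hu
    obtain ⟨b, hb, hvb⟩ := h3 v hv
    obtain ⟨l'', h4, h5, c, hc, hcw⟩ := add_step h1 ha hb hua hvb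
    refine ⟨l'', s' + 2, h4, by omega, fun w hw => ?_⟩
    rcases List.mem_cons.1 hw with rfl | hw
    · exact ⟨c, hc, hcw⟩
    · obtain ⟨d, hd, hdw⟩ := h3 w hw
      exact ⟨d, hd, h5 _ hdw⟩
  | @sub l s L u v _ hu hv ih =>
    obtain ⟨l', s', h1, h2, h3⟩ := ih
    obtain ⟨a, ha, hua⟩ := h3 u hu
    obtain ⟨b, hb, hvb⟩ := h3 v hv
    have hvb' : (-b) • (-v) ∈ l' := by rwa [neg_smul_neg]
    obtain ⟨l'', h4, h5, c, hc, hcw⟩ := add_step h1 ha (neg_ne_zero.2 hb) hua hvb'
    refine ⟨l'', s' + 2, h4, by omega, fun w hw => ?_⟩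
    rcases List.mem_cons.1 hw with rfl | hw
    · exact ⟨c, hc, by rwa [sub_eq_add_neg]⟩
    · obtain ⟨d, hd, hdw⟩ := h3 w hw
      exact ⟨d, hd, h5 _ hdw⟩
  | @smul l s L u c _ hu _ ih =>
    obtain ⟨l', s', h1, h2, h3⟩ := ih
    refine ⟨l', s', h1, by omega, fun w hw => ?_⟩
    rcases List.mem_cons.1 hw with rfl | hw
    · by_cases hc : c = 0
      · exact ⟨1, one_ne_zero, by rw [hc, zero_smul, smul_zero]; exact start_zero h1⟩
      · obtain ⟨a, ha, hua⟩ := h3 u hu
        exact ⟨a / c, div_ne_zero ha hc, by rwa [smul_smul, div_mul_cancel₀ _ hc]⟩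
    · exact h3 w hw
  | @big l s L u c _ hu ih =>
    obtain ⟨l', s', h1, h2, h3⟩ := ih
    refine ⟨l', s', h1, by omega, fun w hw => ?_⟩
    rcases List.mem_cons.1 hw with rfl | hw
    · by_cases hc : c = 0
      · exact ⟨1, one_ne_zero, by rw [hc, zero_smul, smul_zero]; exact start_zero h1⟩
      · obtain ⟨a, ha, hua⟩ := h3 u hu
        exact ⟨a / c, div_ne_zero ha hc, by rwa [smul_smul, div_mul_cancel₀ _ hc]⟩
    · exact h3 w hw

/-- the final scalings -/
theorem scale_outputs {l' : List (Form n)} {s' : ℕ} (h : Comp n 1 l' s' []) (T : List (Form n))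
    (hT : ∀ t ∈ T, ∃ a : ℂ, a ≠ 0 ∧ a • t ∈ l') :
    ∃ L : List (Form n), Comp n 1 (T ++ l') (s' + T.length) L ∧ L.length = T.length := by
  induction T with
  | nil => exact ⟨[], h, rfl⟩
  | cons t T ih =>
    obtain ⟨L, h1, h2⟩ := ih fun x hx => hT x (List.mem_cons_of_mem _ hx)
    obtain ⟨a, ha, hat⟩ := hT t List.mem_cons_self
    have h3 := Comp.big a⁻¹ h1 (List.mem_append_right T hat)
    rw [smul_smul, inv_mul_cancel₀ ha, one_smul] at h3
    exact ⟨_, h3, by simp [h2]⟩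

/-- every linear circuit for the transform can be replaced by one in which only `n`
multiplications are unrestricted, the other ones have coefficients of modulus at most `1` -/
theorem at_most_n {C : ℝ} {l : List (Form n)} {s : ℕ} {L : List (Form n)} (h : Comp n C l s L)
    (hF : ∀ j : Fin n, dft n j ∈ l) : ∃ (l' : List (Form n)) (s' : ℕ) (L' : List (Form n)),
      Comp n 1 l' s' L' ∧ (∀ j : Fin n, dft n j ∈ l') ∧ L'.length = n ∧ s' ≤ 2 * s + n := by
  obtain ⟨l', s', h1, h2, h3⟩ := normalize h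
  obtain ⟨L', h4, h5⟩ := scale_outputs h1 (List.ofFn fun j : Fin n => dft n j) (by
    intro t ht
    rw [List.mem_ofFn] at ht
    obtain ⟨j, rfl⟩ := ht
    exact h3 _ (hF j))
  rw [List.length_ofFn] at h4 h5
  refine ⟨_, _, L', h4, fun j => List.mem_append_left _ (List.mem_ofFn.2 ⟨j, rfl⟩), h5, by omega⟩

/-- the asymptotic form -/
theorem asymptotic {ε C : ℝ} (hε : 0 < ε) (hC : 2 ≤ C) : ∃ c : ℝ, 0 < c ∧ ∃ N : ℕ, ∀ n : ℕ, N ≤ n →
    ∀ (l : List (Form n)) (s : ℕ) (L : List (Form n)), Comp n C l s L →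
      (∀ j : Fin n, dft n j ∈ l) → (L.length : ℝ) ≤ (1 - ε) * n → c * n * Real.logb 2 n ≤ s := by
  have hlC : 0 < Real.logb 2 C := Real.logb_pos (by norm_num) (by linarith)
  refine ⟨ε / (4 * Real.logb 2 C), by positivity, max 1 (2 ^ ⌈2 / ε⌉₊), ?_⟩
  intro n hn l s L h hF hr
  have hn1 : 1 ≤ n := (le_max_left _ _).trans hn
  have hn2 : 2 ^ ⌈2 / ε⌉₊ ≤ n := (le_max_right _ _).trans hn
  have h1 := main_bound hn1 hC h hF
  have hn0 : (0 : ℝ) < n := by exact_mod_cast hn1
  have h2 : 2 / ε ≤ Real.logb 2 n := by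
    have h3 : Real.logb 2 ((2 : ℝ) ^ ⌈2 / ε⌉₊) ≤ Real.logb 2 n :=
      Real.logb_le_logb_of_le (by norm_num) (by positivity) (by exact_mod_cast hn2)
    rw [Real.logb_pow, Real.logb_self_eq_one (by norm_num), mul_one] at h3
    exact (Nat.le_ceil _).trans h3
  have h3 : 2 ≤ ε * Real.logb 2 n := by
    rw [div_le_iff₀ hε] at h2
    linarith
  have h4 : 0 ≤ Real.logb 2 n := by
    have : 0 < 2 / ε := by positivity
    linarith
  have h5 : ε * n / 2 * Real.logb 2 n ≤ ((n : ℝ) - L.length) / 2 * Real.logb 2 n :=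
    mul_le_mul_of_nonneg_right (by linarith) h4
  have h6 : ((s : ℝ) - L.length) * Real.logb 2 C ≤ s * Real.logb 2 C :=
    mul_le_mul_of_nonneg_right (by linarith [Nat.cast_nonneg (α := ℝ) L.length]) hlC.le
  have h7 : (n : ℝ) / 2 ≤ ε * n / 4 * Real.logb 2 n := by nlinarith
  have h8 : ε * n / 4 * Real.logb 2 n ≤ s * Real.logb 2 C := by nlinarith
  rw [div_mul_eq_mul_div, div_mul_eq_mul_div, div_le_iff₀ (by positivity)]
  nlinarith

end Vale.Agent.P344
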