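import Vale.Agent.Lib.P344.Norm

/-!
# P344: superlinear bounds when the large coefficients may be as large as a power of `n`
-/

namespace Vale.Agent.P344

open Finset

variable {n : ℕ}

theorem poly_bound {ε δ : ℝ} (hε : 0 < ε) (hδ : 0 < δ) : ∃ N : ℕ, ∀ n : ℕ, N ≤ n →
    ∀ (l : List (Form n)) (s : ℕ) (L : List (Form n)), Comp n ((n : ℝ) ^ δ) l s L →
      (∀ j : Fin n, dft n j ∈ l) → (L.length : ℝ) ≤ (1 - ε) * n → ε / (4 * δ) * n ≤ s := by
  refine ⟨max 1 (2 ^ (⌈2 / ε⌉₊ + ⌈1 / δ⌉₊)), ?_⟩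
  intro n hn l s L h hF hr
  have hn1 : 1 ≤ n := (le_max_left _ _).trans hn
  have hn2 : 2 ^ (⌈2 / ε⌉₊ + ⌈1 / δ⌉₊) ≤ n := (le_max_right _ _).trans hn
  have hn0 : (0 : ℝ) < n := by exact_mod_cast hn1
  have hlog : ((⌈2 / ε⌉₊ + ⌈1 / δ⌉₊ : ℕ) : ℝ) ≤ Real.logb 2 n := by
    have h3 : Real.logb 2 ((2 : ℝ) ^ (⌈2 / ε⌉₊ + ⌈1 / δ⌉₊)) ≤ Real.logb 2 n :=
      Real.logb_le_logb_of_le (by norm_num) (by positivity) (by exact_mod_cast hn2)
    rwa [Real.logb_pow, Real.logb_self_eq_one (by norm_num), mul_one] at h3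
  rw [Nat.cast_add] at hlog
  have ha : 2 / ε ≤ Real.logb 2 n := by
    have h1 := Nat.le_ceil (2 / ε)
    have h2 : (0 : ℝ) ≤ (⌈1 / δ⌉₊ : ℝ) := Nat.cast_nonneg _
    linarith
  have hb : 1 / δ ≤ Real.logb 2 n := by
    have h1 := Nat.le_ceil (1 / δ)
    have h2 : (0 : ℝ) ≤ (⌈2 / ε⌉₊ : ℝ) := Nat.cast_nonneg _
    linarith
  have hl0 : 0 < Real.logb 2 n := lt_of_lt_of_le (by positivity) ha
  have hlC : Real.logb 2 ((n : ℝ) ^ δ) = δ * Real.logb 2 n :=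
    Real.logb_rpow_eq_mul_logb_of_pos hn0
  have hC : (2 : ℝ) ≤ (n : ℝ) ^ δ := by
    rw [div_le_iff₀ hδ] at hb
    have h1 : Real.logb 2 2 ≤ Real.logb 2 ((n : ℝ) ^ δ) := by
      rw [hlC, Real.logb_self_eq_one (by norm_num)]
      linarith
    exact (Real.logb_le_logb (by norm_num) (by norm_num) (by positivity)).1 h1
  have h1 := main_bound hn1 hC h hF
  rw [hlC] at h1
  have h3 : 2 ≤ ε * Real.logb 2 n := by
    rw [div_le_iff₀ hε] at ha
    linarith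
  have h5 : ε * n / 2 * Real.logb 2 n ≤ ((n : ℝ) - L.length) / 2 * Real.logb 2 n :=
    mul_le_mul_of_nonneg_right (by linarith) hl0.le
  have h6 : ((s : ℝ) - L.length) * (δ * Real.logb 2 n) ≤ s * (δ * Real.logb 2 n) :=
    mul_le_mul_of_nonneg_right (by linarith [Nat.cast_nonneg (α := ℝ) L.length]) (by positivity)
  have h7 : (n : ℝ) / 2 ≤ ε * n / 4 * Real.logb 2 n := by nlinarith
  have h8 : (ε * n / 4) * Real.logb 2 n ≤ (s * δ) * Real.logb 2 n := by nlinarith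
  have h9 : ε * n / 4 ≤ s * δ := le_of_mul_le_mul_right h8 hl0
  rw [div_mul_eq_mul_div, div_le_iff₀ (by positivity)]
  linarith

theorem poly_structure {ε K : ℝ} (hε : 0 < ε) (hK : 0 < K) : ∃ N : ℕ, ∀ n : ℕ, N ≤ n →
    ∀ (l : List (Form n)) (s : ℕ) (L : List (Form n)),
      Comp n ((n : ℝ) ^ (ε / (5 * K))) l s L → (∀ j : Fin n, dft n j ∈ l) → (s : ℝ) ≤ K * n →
        (1 - ε) * n < (L.length : ℝ) := by
  obtain ⟨N, hN⟩ := poly_bound hε (δ := ε / (5 * K)) (by positivity)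
  refine ⟨max N 1, fun n hn l s L h hF hs => ?_⟩
  by_contra hcon
  push Not at hcon
  have h1 := hN n ((le_max_left _ _).trans hn) l s L h hF hcon
  have hn0 : (0 : ℝ) < n := by exact_mod_cast (le_max_right _ _).trans hn
  have h2 : ε / (4 * (ε / (5 * K))) = 5 / 4 * K := by field_simp
  rw [h2] at h1
  nlinarith [mul_pos hK hn0]

end Vale.Agent.P344
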